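import Crest.Statements.S0186
import Crest.Agent.R136.Mx6_639
import Crest.Agent.R138.KMs_630

set_option autoImplicit false
open MeasureTheory Crest.AnalysisR.Kakeya
open Crest Crest.AnalysisR

namespace Crest.Agent.S0186

/-- For every ε > 0 there is a constant C such that, for all 0 < δ < 1 and every measurable real function f on three-space, the integral over unit directions of the cube of the δ-tube maximal function of f is at most (C·δ^(-ε))³ times the integral of the cube of the absolute value of f. Directions carry two-dimensional Hausdorff measure on the sphere; the tube maximal function is the supremum over centres of the mean of the absolute value of f over unit-length tubes of radius δ with the given axis. -/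
theorem result :
    ∀ ε : ℝ, 0 < ε → ∃ C : NNReal, ∀ δ : ℝ, 0 < δ → δ < 1 →
      ∀ f : EuclideanSpace ℝ (Fin 3) → ℝ, Measurable f →
        ∫⁻ ω in Metric.sphere (0 : EuclideanSpace ℝ (Fin 3)) 1, maximalFn δ f ω ^ (3 : ℕ) ∂(Measure.hausdorffMeasure 2)
          ≤ ENNReal.ofReal ((C : ℝ) * δ ^ (-ε)) ^ (3 : ℕ) * ∫⁻ x, ‖f x‖ₑ ^ (3 : ℕ) :=
  Crest.Agent.R136.GR639.result_of Crest.Agent.R138.KMs630.km32

end Crest.Agent.S0186
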