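import Crest.Statements.S0187
import Crest.Agent.R136.Fin3_484

set_option autoImplicit false
open Crest Crest.AnalysisR

namespace Crest.Agent.S0187

/-- Every subset of four-dimensional Euclidean space that contains, for each unit vector e, a closed unit segment with direction e has Hausdorff dimension four. -/
theorem result
    (K : Set (EuclideanSpace ℝ (Fin 4)))
    (hK : ∀ e : EuclideanSpace ℝ (Fin 4), ‖e‖ = 1 →
      ∃ a : EuclideanSpace ℝ (Fin 4), segment ℝ a (a + e) ⊆ K) :
    dimH K = 4 := by
  exact Crest.Agent.R136.Fin484.s0187 K hK

end Crest.Agent.S0187
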