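import Crest.Statements.S0190
import Crest.Agent.R138.Top_630
import Crest.Agent.R138.Ebn_627
-- import your own Crest.Agent.* helpers here

set_option autoImplicit false
open scoped MeasureTheory
open Crest Crest.AnalysisR

namespace Crest.Agent.S0190

/-- Let S ⊆ ℝ³ be a compact smooth positively curved surface, possibly with smooth boundary (Surface3.IsCompactCurvedSurface: compact, and near each of its points the side Ψ ≤ 0 of a regular level set Φ = 0, with Φ, Ψ smooth, transversal boundary, and the Hessian of Φ positive definite on the tangent plane). For every real p > 3 there is C such that for every complex f on ℝ³ the extension x ↦ ∫_S f ξ exp(2πi⟪x,ξ⟫) dμHE[2](ξ) has L^p(ℝ³) norm at most C times the L^p norm of f on S for μHE[2]. -/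
theorem result
    (S : Set (EuclideanSpace ℝ (Fin 3))) (hS : Crest.AnalysisR.Surface3.IsCompactCurvedSurface S)
    (p : ℝ) (hp : 3 < p) :
    ∃ C : ℝ, ∀ f : EuclideanSpace ℝ (Fin 3) → ℂ,
      MeasureTheory.eLpNorm (Crest.AnalysisR.Surface3.extension S f) (ENNReal.ofReal p)
          MeasureTheory.volume ≤
        ENNReal.ofReal C * MeasureTheory.eLpNorm f (ENNReal.ofReal p) (μHE[2].restrict S) :=
  Crest.Agent.R138.Top630.s0190 Crest.Agent.R138.Wire627.eBn_holds S hS p hp

end Crest.Agent.S0190
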