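import Crest.Statements.S0195
import Crest.Agent.R144.Fin7_830

set_option autoImplicit false
open scoped ContDiff
open Crest Crest.ProbabilityR

namespace Crest.Agent.S0195

/-- Integer heights on the hexagonal faces inside a simple lattice cycle, zero along it, `1`-Lipschitz across edges, weight `x^N`, `N` the number of edges with a height change: for each `x ∈ [1/√2, 1]` one `σ > 0` serves every bounded `C²` Jordan domain `D` (with a holomorphic bijection `φ` onto the unit disc) and every inside approximation, mesh `→ 0`: for smooth `f` with compact support in `D`, `⟨h, f⟩/σ` tends in law and in moments to `N(0, ∬ f(z) G(φ z, φ w) f(w))`, `G` = disc Green function. -/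
theorem result (x : ℝ)
    (hx : 1 / Real.sqrt 2 ≤ x) (hx1 : x ≤ 1) :
    ∃ σ : ℝ, 0 < σ ∧ ∀ (D : Set ℂ) (γ : ℝ → ℂ) (φ : ℂ → ℂ),
      Crest.ProbabilityR.HexHeights.IsC2JordanDomain D γ → DifferentiableOn ℂ φ D →
      Set.BijOn φ D (Metric.ball (0 : ℂ) 1) →
      ∀ (δ : ℕ → ℝ) (F : ℕ → Finset (ℤ × ℤ)),
        Crest.ProbabilityR.HexHeights.IsInsideApprox D γ δ F →
      ∀ f : ℂ → ℝ, ContDiff ℝ ∞ f → HasCompactSupport f → tsupport f ⊆ D →
        (∀ t : ℝ, Filter.Tendsto (fun n : ℕ => Crest.ProbabilityR.HexHeights.heightExpect (F n) x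
            (fun h => Complex.exp (Complex.I *
              (t * Crest.ProbabilityR.HexHeights.pairing (δ n) f h / σ : ℝ))))
          Filter.atTop
          (nhds (Complex.exp
            (-(Crest.ProbabilityR.HexHeights.domainGreenForm φ f * t ^ 2 / 2 : ℝ))))) ∧
        ∀ k : ℕ, Filter.Tendsto (fun n : ℕ => Crest.ProbabilityR.HexHeights.heightExpect (F n) x
            (fun h => ((Crest.ProbabilityR.HexHeights.pairing (δ n) f h / σ) ^ k : ℝ)))
          Filter.atTop
          (nhds ((if Even k then Crest.ProbabilityR.HexHeights.domainGreenForm φ f ^ (k / 2) *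
              ((k - 1).doubleFactorial : ℝ) else 0 : ℝ) : ℂ)) := by
  exact Crest.Agent.R144.Fin830.s0195_of_cell (Crest.Agent.R144.Fin830.cell x) hx hx1

end Crest.Agent.S0195
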