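import Crest.Statements.S0197
import Crest.Agent.R144.Fin99_144
import Crest.Agent.R144.LowL14_549
import Crest.Agent.R144.KapN5_761

set_option autoImplicit false
open scoped ContDiff
open Crest Crest.ProbabilityR

namespace Crest.Agent.S0197

/-- Uniform real vertex heights on triangular-lattice polygons approximating a smooth bounded simply connected marked domain `D`: `±a` on the two boundary arcs, edge steps `≤ 1`, affine on triangles, `h(f) = ∫ f·h`. Some `A, σ, λ > 0` with `σ² = 1/(vA)`, `λ² = π/(8vA)`, `v = 2/√3`, `λ ≤ 1/2` give: for all `a ∈ (0,1/2]`, such `D` (conformal chart `φ` onto the unit disc) and smooth `f` compactly supported in `D`, `(h(f) - E h(f))/σ → N(0, ∬ f(z)G(φ z, φ w)f(w))` in law, `G` = disc Green fn. -/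
theorem result :
    ∃ A σ lam : ℝ, 0 < A ∧ 0 < σ ∧ σ ^ 2 = 1 / ((2 / Real.sqrt 3) * A) ∧ 0 < lam ∧
      lam ^ 2 = Real.pi / (8 * (2 / Real.sqrt 3) * A) ∧ lam ≤ 1 / 2 ∧
      ∀ a : ℝ, 0 < a → a ≤ 1 / 2 → ∀ (D : Set ℂ) (γ : ℝ → ℂ) (θ : ℝ) (φ : ℂ → ℂ),
      Crest.ProbabilityR.TriHeights.IsSmoothMarkedDomain D γ θ → DifferentiableOn ℂ φ D →
      Set.BijOn φ D (Metric.ball (0 : ℂ) 1) →
      ∀ (δ : ℕ → ℝ) (T : ℕ → Finset Crest.ProbabilityR.TriHeights.Tri) (ea eb : ℕ → (ℤ × ℤ) × (ℤ × ℤ)) (c : ℕ → ℝ → ℂ),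
        Crest.ProbabilityR.TriHeights.IsMarkedApprox γ θ δ T ea eb c →
      ∀ f : ℂ → ℝ, ContDiff ℝ ∞ f → HasCompactSupport f → tsupport f ⊆ D →
        ∀ t : ℝ, Filter.Tendsto (fun n : ℕ => Crest.ProbabilityR.TriHeights.realExpect (T n) (Crest.ProbabilityR.TriHeights.arcPlus (δ n) (T n) (c n) θ) (Crest.ProbabilityR.TriHeights.arcMinus (δ n) (T n) (c n) θ) a
            (fun h => Complex.exp (Complex.I *
              (t * (Crest.ProbabilityR.TriHeights.affinePairing (δ n) (T n) f h -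
              (Crest.ProbabilityR.TriHeights.realExpect (T n) (Crest.ProbabilityR.TriHeights.arcPlus (δ n) (T n) (c n) θ) (Crest.ProbabilityR.TriHeights.arcMinus (δ n) (T n) (c n) θ) a (fun h' => (Crest.ProbabilityR.TriHeights.affinePairing (δ n) (T n) f h' : ℂ))).re) / σ : ℝ))))
          Filter.atTop
          (nhds (Complex.exp (-(Crest.ProbabilityR.HexHeights.domainGreenForm φ f * t ^ 2 / 2 : ℝ)))) := by
  obtain ⟨P, hP, _⟩ := Crest.Agent.R144.Par144.exists_par
  exact Crest.Agent.R144.Skel144.s0197_of_two hP (Crest.Agent.R144.LowL549.loD hP.s674)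
    (Crest.Agent.R144.KapN761.kapD_fin hP.s565)

end Crest.Agent.S0197
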