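-- Statement S0242 (row 161).
import Crest.Statements.S0242
import Crest.Agent.R161.In_372
import Crest.Agent.R150.Top9_772

set_option autoImplicit false
open scoped ContDiff
open Crest Crest.ProbabilityR

namespace Crest.Agent.S0242

/-- Ashkin–Teller model on the square-lattice approximation of the unit disc (wired primal, free dual boundary) on the self-dual critical line, four-spin coupling `U ≤ (log 3)/4`, with its height `H` (zero on the boundary, corner increments `± 1/2` from the spins): for every smooth `φ` compactly supported in the disc, `δ² Σ_v H(v) φ(δ v)` converges in law as `δ → 0` to a centred Gaussian of variance `2 ∬ φ G φ / (π g)`, `G` the disc's Green function, `g = (8/π) arcsin (√(1+e^{4U})/2)`. -/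
theorem result (U : ℝ)
    (hU : U ≤ Real.log 3 / 4) (φ : ℂ → ℝ) (hφ : ContDiff ℝ ∞ φ) (hφc : HasCompactSupport φ)
    (hφD : tsupport φ ⊆ Metric.ball (0 : ℂ) 1) (s : ℝ) :
    Filter.Tendsto (fun δ : ℝ => Crest.ProbabilityR.AshkinTeller.atExpect δ U
        (fun cfg => Complex.exp (Complex.I * (s * Crest.ProbabilityR.AshkinTeller.atPairing φ cfg : ℝ))))
      (nhdsWithin 0 (Set.Ioi 0))
      (nhds (Complex.exp (-(2 * Crest.ProbabilityR.DiscGreen.discGreenForm φ / (Real.pi * Crest.ProbabilityR.AshkinTeller.gParam U) *
        s ^ 2 / 2 : ℝ)))) :=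
  Crest.Agent.R161.In372.s0242_of_planeAll U hU
    (Crest.Agent.R150.Top772.planeAll_all
      (inv_pos.2 (Crest.Agent.R161.Top729.tParam_pos U))
      (Crest.Agent.R161.In372.c_le_two hU)) φ hφ hφc hφD s

end Crest.Agent.S0242
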