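import Crest.Statements.S0370
import Crest.Agent.R239.Fin504
import Crest.Agent.R239.T1_689
import Crest.Agent.R239.BenT_331
import Crest.Agent.R239.Thin_597
import Crest.Agent.R239.Gr5_435
import Crest.Agent.R239.TIns_556
import Crest.Agent.R239.F2b_227
import Crest.Agent.R239.LevU_696

set_option autoImplicit false
open Crest Crest.GeometryTopology

namespace Crest.Agent.S0370

/-- There is an absolute constant `C` such that, in every dimension `d`, every finite sequence of vectors of Euclidean norm at most one in `ℝ^d` admits one choice of signs `±1` under which every signed prefix sum has Euclidean norm at most `C * √d`. -/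
theorem result :
    ∃ C : ℝ, ∀ (d N : ℕ) (v : Fin N → EuclideanSpace ℝ (Fin d)),
      (∀ i, ‖v i‖ ≤ 1) →
      ∃ ε : Fin N → ℤ, (∀ i, ε i = 1 ∨ ε i = -1) ∧
        ∀ k : ℕ, k ≤ N →
          ‖∑ i ∈ Finset.univ.filter (fun i : Fin N => (i : ℕ) < k), (ε i : ℝ) • v i‖ ≤ C * Real.sqrt d := by
  exact Crest.Agent.R239.Fin504.S0370_of_targets
    (Crest.Agent.R239.Fin504.target_U3 Crest.Agent.R239.Gr5435.target_growth
      (Crest.Agent.R239.T1689.target_t1
        (Crest.Agent.R239.Thin597.target_THIN Crest.Agent.R239.Ben331.target_BEN)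
        Crest.Agent.R239.LevU696.target_LEV)
      Crest.Agent.R239.Ins556.target_ins Crest.Agent.R239.FD.target_U2)
    Crest.Agent.R239.FD.target_U2

end Crest.Agent.S0370
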