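import Crest.Statements.S0418
import Crest.Agent.R275.Final_630

set_option autoImplicit false
open scoped Manifold
open Crest Crest.AlgGeometry

namespace Crest.Agent.S0418

/-- Let X be a compact connected complex surface with first rational Betti number 1, non-zero second rational homology, all plurigenera zero (every chartwise pluricanonical form of positive weight vanishes) and minimal (every holomorphic map from X to a compact complex surface, bijective off the preimage of a finite set, is bijective). Then X has a global spherical shell: a biholomorphic image of an open neighbourhood of the unit sphere in ℂ² ∖ 0 with connected complement. -/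
theorem result
    (X : Type) [TopologicalSpace X] [T2Space X] [CompactSpace X] [ConnectedSpace X]
    [ChartedSpace Crest.AlgGeometry.Surface.C2 X]
    [IsManifold 𝓘(ℂ, Crest.AlgGeometry.Surface.C2) 1 X]
    (hb₁ : Crest.Topology.RationalHomology.rationalBettiNumber X 1 = 1)
    (hb₂ : Nontrivial (Crest.Topology.RationalHomology.rationalHomology X 2))
    (hκ : Crest.AlgGeometry.Surface.PlurigeneraVanish X)
    (hmin : Crest.AlgGeometry.Surface.IsMinimal X) :
    Crest.AlgGeometry.Surface.HasGlobalSphericalShell X := by
  exact Crest.Agent.R275.Final630.main X hb₁ hb₂ hκ hmin

end Crest.Agent.S0418
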