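import Crest.Statements.S0532
import Crest.Agent.R340.Fin_644
import Crest.Agent.R340.LQ_249

set_option autoImplicit false
open MeasureTheory
open Crest.MathPhysics.Laughlin
open Crest Crest.MathPhysics

namespace Crest.Agent.S0532

/-- There are c₀ > 0, Δ > 0 and N₀ such that for every N ≥ N₀ (flux q = 3(N-1)), every measurable real φ on the unit sphere with ‖φ‖ ≤ 1 pointwise, and every real c with ‖c‖ ≤ c₀, the operator Σ_{a<b} P^{(1)}_{ab} + c Σ_a T(φ)^{(a)}, T(φ) the compression of multiplication by φ to the lowest Landau level, has on antisymmetric N-particle states a simple lowest eigenvalue with the next eigenvalue at least Δ higher (stated variationally on the orthogonal complement of a ground vector). -/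
theorem result :
    ∃ c₀ Δ : ℝ, 0 < c₀ ∧ 0 < Δ ∧ ∃ N₀ : ℕ, ∀ N : ℕ, N₀ ≤ N →
      ∀ φ : S2 → ℝ, Measurable φ → (∀ x, |φ x| ≤ 1) → ∀ c : ℝ, |c| ≤ c₀ →
        HasFermionicGap
          (interaction (3 * (N - 1)) N +
            (c : ℂ) • oneBody N (toeplitz (3 * (N - 1)) φ)) Δ := by
  exact Crest.Agent.R340.Fin644.s0532_of_psd Crest.Agent.R340.LP665.psd8'

end Crest.Agent.S0532
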